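import Vale.Agent.P043.Aperiodic.System
import Vale.Agent.P043.Aperiodic.Euclid
import Vale.Agent.P043.Three.Periodic
import Vale.Agent.P043.Plane.Main

/-! The periodic tiling conjecture fails for `ℝ^d` in every dimension `d ≥ 2` and for `ℤ^d` in
every dimension `d ≥ 4`. -/

namespace Vale.Agent.Results.P043.AperiodicEuclid

open Vale.Agent.P043 Vale.Agent.P043.Aperiodic MeasureTheory

/-- For every `d ≥ 2` some bounded measurable tile of `ℝ^d` tiles only aperiodically, and for
every `d ≥ 4` so does some finite tile of `ℤ^d`. -/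
theorem result :
    (∀ d : ℕ, 2 ≤ d → ∃ Ω : Set (Fin d → ℝ), MeasurableSet Ω ∧ Bornology.IsBounded Ω ∧
      0 < volume Ω ∧ (∃ A, RTiles Ω A) ∧ ∀ A, RTiles Ω A → ¬ RPeriodic A) ∧
    ∀ d : ℕ, 4 ≤ d → ∃ F : Finset (Grid d), (∃ A, Tiles F A) ∧ ∀ A, Tiles F A → ¬ IsPeriodic A := by
  refine ⟨fun d hd => ?_, fun d hd => exists_aperiodic_tile_of_le hd exists_aperiodic_tile_four⟩
  rcases Nat.eq_or_lt_of_le hd with rfl | h3
  · exact Plane.exists_aperiodic_plane
  rcases Nat.eq_or_lt_of_le (show 3 ≤ d by omega) with rfl | h4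
  · exact Three.exists_aperiodic_three
  · obtain ⟨F, hA, hno⟩ := exists_aperiodic_tile_of_le h4 exists_aperiodic_tile_four
    exact exists_aperiodic_euclidean_tile (by omega) F hA hno

end Vale.Agent.Results.P043.AperiodicEuclid
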