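import Vale.Agent.P043.Main

/-!
P043: the periodic tiling conjecture, in every dimension, for tiles with no pairing subspace of
codimension at least two.
-/

namespace Vale.Agent.Results.P043.CodimensionOne

open Vale.Agent.P043

theorem result : ∀ (d : ℕ) (F : Finset (Fin d → ℤ)),
    (∀ U : Submodule ℚ (Fin d → ℚ), Module.finrank ℚ U + 2 ≤ d →
      ∃ f ∈ F, ∀ g ∈ F, (fun i => ((g i - f i : ℤ) : ℚ)) ∈ U → g = f) →
    (∃ A : Set (Fin d → ℤ), ∀ x, ∃! f, f ∈ F ∧ x - f ∈ A) →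
    ∃ A : Set (Fin d → ℤ), (∀ x, ∃! f, f ∈ F ∧ x - f ∈ A) ∧
      ∃ L : ℕ, 0 < L ∧ ∀ a z : Fin d → ℤ, a + (L : ℤ) • z ∈ A ↔ a ∈ A := by
  intro d F hF hA
  exact exists_periodic_tiling (fun U hU => hF U hU) hA

end Vale.Agent.Results.P043.CodimensionOne
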