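import Vale.Agent.P043.SmallSlices

/-!
P043: the periodic tiling conjecture in `ℤ^3` outside tiles with vanishing slices.
-/

namespace Vale.Agent.Results.P043.RootFreeSpace

open Vale.Agent.P043

theorem result :
    (∀ F : Finset (Fin 3 → ℤ),
      (∀ v : Fin 3 → ℤ, v ≠ 0 → ∀ (ζ : ℂ) (n : ℕ), 0 < n → ζ ^ n = 1 →
        ∃ r : ℕ, Nat.Coprime r F.card ∧
          ∃ f ∈ F, (∑ᶠ k ∈ {k : ℤ | f + k • v ∈ F}, ζ ^ ((r : ℤ) * k)) ≠ 0) →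
      (∃ A : Set (Fin 3 → ℤ), ∀ x, ∃! f, f ∈ F ∧ x - f ∈ A) →
      ∃ A : Set (Fin 3 → ℤ), (∀ x, ∃! f, f ∈ F ∧ x - f ∈ A) ∧
        ∃ L : ℕ, 0 < L ∧ ∀ a z : Fin 3 → ℤ, a + (L : ℤ) • z ∈ A ↔ a ∈ A) ∧
    (∀ F : Finset (Fin 3 → ℤ),
      (∀ v : Fin 3 → ℤ, v ≠ 0 → ∃ f ∈ F, {k : ℤ | f + k • v ∈ F}.ncard < F.card.minFac) →
      (∃ A : Set (Fin 3 → ℤ), ∀ x, ∃! f, f ∈ F ∧ x - f ∈ A) →
      ∃ A : Set (Fin 3 → ℤ), (∀ x, ∃! f, f ∈ F ∧ x - f ∈ A) ∧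
        ∃ L : ℕ, 0 < L ∧ ∀ a z : Fin 3 → ℤ, a + (L : ℤ) • z ∈ A ↔ a ∈ A) :=
  ⟨fun _ hF hA => exists_periodic_of_rootFree hF hA,
    fun _ hF hA => exists_periodic_of_rootFree (rootFree_of_small_slices hF) hA⟩

end Vale.Agent.Results.P043.RootFreeSpace
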